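import Vale.Agent.P278.Full.FinalF

open scoped ContDiff Manifold
open Vale.Agent.P278.StmtF

namespace Vale.Agent.Results.P278.Beauville

universe u

theorem result {E : Type*} [NormedAddCommGroup E] [NormedSpace ℂ E] [FiniteDimensional ℂ E]
    {X : Type*} [TopologicalSpace X] [CompactSpace X] [T2Space X] [ConnectedSpace X]
    [ChartedSpace E X] [IsManifold 𝓘(ℂ, E) ω X]
    {M : Type u} [TopologicalSpace M] [SimplyConnectedSpace M]
    [ChartedSpace E M] [IsManifold 𝓘(ℂ, E) ω M]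
    (π : M → X) (hπ : IsCoveringMap π) (hπl : IsLocalDiffeomorph 𝓘(ℂ, E) 𝓘(ℂ, E) ω π)
    (h : Form E X) (hh : IsKahler h) {k : ℕ} (F : Fin k → Dist E X)
    (hF : ∀ i, IsSubbundle (F i)) (hI : ∀ I : Set (Fin k), IsIntegrable fun x => ⨆ i ∈ I, F i x)
    (hc : ∀ x, DirectSum.IsInternal fun i => F i x) :
    InducesProduct fun i x => (F i (π x)).comap (mfderiv 𝓘(ℂ, E) 𝓘(ℂ, E) π x).toLinearMap :=
  Vale.Agent.P278.Full.bridgeF π hπ hπl h hh F hF hI hc

end Vale.Agent.Results.P278.Beauville
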